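import Vale.Agent.P355.H129V.Ev
import Vale.Agent.P355.H129.Psd

/-! Kernel checker for the four symmetric Gram blocks. -/

namespace Vale.Agent.P355.H129V

open Finset Vale.Agent.P355 Vale.Agent.P355.H138 Vale.Agent.P355.H693.Inj
open Vale.Agent.P355.H129 (dg Gm Gm_comm psdCk psdCk_nonneg psdCk_bdd)
open Vale.Agent.P355.H387 (NM toM toM3 Cls biasC f9 f6 seq seq_eq CT AF AT pb loadL loadL_sound
  evL eqT eqT_sound zeroT)
open Vale.Agent.P355.H693W (e0 tr ng sF pat)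

variable {F : Bool → Mt → ℝ}

/-- sign and magnitude of a difference. -/
noncomputable def smag (x y : ℕ) (k : ℕ → ℕ → Bool) : Bool :=
  cond (Nat.ble y x) (seq (Nat.sub x y) fun w => k 0 w) (seq (Nat.sub y x) fun w => k 1 w)

theorem smag_eq (x y : ℕ) (k : ℕ → ℕ → Bool) :
    ∃ s w, smag x y k = k s w ∧ (sw s w : ℝ) = (x : ℝ) - y := by
  unfold smag
  cases h : Nat.ble y x with
  | true =>
    have hle := Nat.le_of_ble_eq_true h
    refine ⟨0, x - y, by rw [cond_true, seq_eq]; rfl, ?_⟩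
    unfold sw
    rw [if_pos rfl]
    push_cast [Nat.cast_sub hle]
    rfl
  | false =>
    have hle : x ≤ y := by
      by_contra hc
      have : Nat.ble y x = true := Nat.ble_eq_true_of_le (by omega)
      rw [this] at h; exact absurd h (by simp)
    refine ⟨1, y - x, by rw [cond_false, seq_eq]; rfl, ?_⟩
    unfold sw
    rw [if_neg (by norm_num)]
    push_cast [Nat.cast_sub hle]
    ring

/-- parity bit. -/
def offb (bk bl : ℕ) : ℕ :=
  Nat.rec (motive := fun _ => ℕ) (Nat.rec (motive := fun _ => ℕ) 0 (fun _ _ => pb) bl)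
    (fun _ _ => Nat.rec (motive := fun _ => ℕ) pb (fun _ _ => 0) bl) bk

theorem offb_eq (f f' : Fg) : offb f.b f'.b = cond (xor f.par f'.par) pb 0 := by
  unfold Fg.par
  cases f.b <;> cases f'.b <;> rfl

/-- parity factor. -/
def p6 (bk bl : ℕ) : ℕ :=
  Nat.rec (motive := fun _ => ℕ) 1 (fun _ _ => Nat.rec (motive := fun _ => ℕ) 1 (fun _ _ => 6) bl) bk

theorem p6_eq (f f' : Fg) : (p6 f.b f'.b : ℤ) = par6 f.par f'.par := by
  unfold Fg.par
  cases f.b <;> cases f'.b <;> rfl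

/-- one pair. -/
noncomputable def pair (ct : CT) (oU4 A B : ℕ) (fk : Fg) (p : Fg × Fg) (dd u0 u1 u2 u3 R S : ℕ)
    (P Q : AT) (k : ℕ → ℕ → AT → AT → Bool) : Bool :=
  seq (offb fk.b p.1.b) fun off =>
  seq (Nat.mul dd (p6 fk.b p.1.b)) fun m =>
  smag (Nat.mul m (Nat.add (Nat.add u0 u1) (Nat.add u2 u3))) (Nat.mul m oU4) fun s00 w00 =>
  smag (Nat.mul m (Nat.add u0 u2)) (Nat.mul m (Nat.add u1 u3)) fun s01 w01 =>
  rowL ct A B p.1 off w00 s00 w01 s01 (patN fk.s p.1.s) (patN fk.r p.1.r) R S P Q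
    fun R1 S1 P1 Q1 =>
  smag (Nat.mul m (Nat.add u0 u1)) (Nat.mul m (Nat.add u2 u3)) fun s10 w10 =>
  smag (Nat.mul m (Nat.add u0 u3)) (Nat.mul m (Nat.add u1 u2)) fun s11 w11 =>
  rowL ct A B p.2 off w10 s10 w11 s11 (patN fk.s p.2.s) (patN fk.r p.2.r) R1 S1 P1 Q1 k

/-- check of a flag and its transpose. -/
def okF (p : Fg × Fg) : Bool :=
  p.1.ok && (p.2.ok && (decide (p.2.P = swL p.1.P) && (decide (p.2.N = swL p.1.N) &&
    (Nat.beq p.2.b p.1.b && (Nat.beq p.2.r p.1.s && Nat.beq p.2.s p.1.r)))))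

theorem okF_spec {p : Fg × Fg} (h : okF p = true) : p.1.ok = true ∧ p.2.ok = true ∧
    p.2 = p.1.tr := by
  unfold okF at h
  simp only [Bool.and_eq_true, decide_eq_true_eq] at h
  obtain ⟨h1, h2, h3, h4, h5, h6, h7⟩ := h
  refine ⟨h1, h2, ?_⟩
  have e5 := Nat.eq_of_beq_eq_true h5
  have e6 := Nat.eq_of_beq_eq_true h6
  have e7 := Nat.eq_of_beq_eq_true h7
  obtain ⟨f, g⟩ := p
  obtain ⟨P, N, b, r, s⟩ := g
  simp only at h3 h4 e5 e6 e7
  subst h3 h4 e5 e6 e7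
  rfl

/-- value of a pair. -/
noncomputable def pv (F : Bool → Mt → ℝ) (f f' : Fg) (q0 q1 q2 q3 : ℝ) : ℝ :=
  (par6 f.par f'.par : ℝ) *
    ((q0 + q1 + q2 + q3) * sF F (xor f.par f'.par) f.fl f'.fl +
     (q0 - q1 + q2 - q3) * sF F (xor f.par f'.par) f.fl (ng f'.fl) +
     (q0 + q1 - q2 - q3) * sF F (xor f.par f'.par) f.fl (tr f'.fl) +
     (q0 - q1 - q2 + q3) * sF F (xor f.par f'.par) f.fl (ng (tr f'.fl)))

theorem pair_sound (hF : Cls F) {ct : CT} {oU : ℕ} {fk : Fg} (h : fk.ok = true) {p : Fg × Fg}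
    (hp : okF p = true) {dd u0 u1 u2 u3 R S : ℕ} {P Q : AT} {V W : ℝ} (hP : AF F ct P S V)
    (hQ : AF F ct Q S W) (k : ℕ → ℕ → AT → AT → Bool)
    (hk : pair ct (Nat.mul 4 oU) (Nat.add biasC (cv (mp e0.1) (mp e0.1) fk.P))
      (cv (mp e0.1) (mp e0.1) fk.N) fk p dd u0 u1 u2 u3 R S P Q k = true) :
    ∃ R' S' P' Q' V' W', AF F ct P' S' V' ∧ AF F ct Q' S' W' ∧
      V' - W' = V - W + (dd : ℝ) * pv F fk p.1 ((u0 : ℝ) - oU) ((u1 : ℝ) - oU) ((u2 : ℝ) - oU)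
        ((u3 : ℝ) - oU) ∧ k R' S' P' Q' = true := by
  obtain ⟨h1, h2, h3⟩ := okF_spec hp
  obtain ⟨-, -, p3, p4, -⟩ := Fg.ok_spec h
  obtain ⟨-, -, q3, q4, -⟩ := Fg.ok_spec h1
  obtain ⟨-, -, r3, r4, -⟩ := Fg.ok_spec h2
  have hb : p.2.par = p.1.par := by rw [h3]; rfl
  have hpR : ((p6 fk.b p.1.b : ℕ) : ℝ) = (par6 fk.par p.1.par : ℝ) := by
    exact_mod_cast congrArg (fun z : ℤ => (z : ℝ)) (p6_eq fk p.1)
  unfold pair at hk
  simp only [seq_eq] at hk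
  rw [offb_eq] at hk
  generalize hm : Nat.mul dd (p6 fk.b p.1.b) = m at hk
  have hmR : (m : ℝ) = (dd : ℝ) * (par6 fk.par p.1.par : ℝ) := by
    rw [← hm, ← hpR]
    show ((dd * p6 fk.b p.1.b : ℕ) : ℝ) = _
    push_cast; ring
  obtain ⟨s00, w00, e1, e1'⟩ := smag_eq (Nat.mul m (Nat.add (Nat.add u0 u1) (Nat.add u2 u3)))
    (Nat.mul m (Nat.mul 4 oU)) (fun s00 w00 =>
      smag (Nat.mul m (Nat.add u0 u2)) (Nat.mul m (Nat.add u1 u3)) fun s01 w01 =>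
      rowL ct (Nat.add biasC (cv (mp e0.1) (mp e0.1) fk.P)) (cv (mp e0.1) (mp e0.1) fk.N)
        p.1 (cond (xor fk.par p.1.par) pb 0) w00 s00 w01 s01 (patN fk.s p.1.s)
        (patN fk.r p.1.r) R S P Q fun R1 S1 P1 Q1 =>
      smag (Nat.mul m (Nat.add u0 u1)) (Nat.mul m (Nat.add u2 u3)) fun s10 w10 =>
      smag (Nat.mul m (Nat.add u0 u3)) (Nat.mul m (Nat.add u1 u2)) fun s11 w11 =>
      rowL ct (Nat.add biasC (cv (mp e0.1) (mp e0.1) fk.P)) (cv (mp e0.1) (mp e0.1) fk.N)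
        p.2 (cond (xor fk.par p.1.par) pb 0) w10 s10 w11 s11 (patN fk.s p.2.s)
        (patN fk.r p.2.r) R1 S1 P1 Q1 k)
  rw [e1] at hk
  obtain ⟨s01, w01, e2, e2'⟩ := smag_eq (Nat.mul m (Nat.add u0 u2)) (Nat.mul m (Nat.add u1 u3))
    (fun s01 w01 =>
      rowL ct (Nat.add biasC (cv (mp e0.1) (mp e0.1) fk.P)) (cv (mp e0.1) (mp e0.1) fk.N)
        p.1 (cond (xor fk.par p.1.par) pb 0) w00 s00 w01 s01 (patN fk.s p.1.s)
        (patN fk.r p.1.r) R S P Q fun R1 S1 P1 Q1 =>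
      smag (Nat.mul m (Nat.add u0 u1)) (Nat.mul m (Nat.add u2 u3)) fun s10 w10 =>
      smag (Nat.mul m (Nat.add u0 u3)) (Nat.mul m (Nat.add u1 u2)) fun s11 w11 =>
      rowL ct (Nat.add biasC (cv (mp e0.1) (mp e0.1) fk.P)) (cv (mp e0.1) (mp e0.1) fk.N)
        p.2 (cond (xor fk.par p.1.par) pb 0) w10 s10 w11 s11 (patN fk.s p.2.s)
        (patN fk.r p.2.r) R1 S1 P1 Q1 k)
  rw [e2, patN_eq p4 q4, patN_eq p3 q3] at hk
  obtain ⟨R1, S1, P1, Q1, V1, W1, a1, a2, a3, a4⟩ :=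
    rowL_sound hF h h1 (xor fk.par p.1.par) w00 s00 w01 s01 _ (pat fk.s p.1.s) (pat fk.r p.1.r)
      R S P Q V W hP hQ hk
  obtain ⟨s10, w10, e3, e3'⟩ := smag_eq (Nat.mul m (Nat.add u0 u1)) (Nat.mul m (Nat.add u2 u3))
    (fun s10 w10 =>
      smag (Nat.mul m (Nat.add u0 u3)) (Nat.mul m (Nat.add u1 u2)) fun s11 w11 =>
      rowL ct (Nat.add biasC (cv (mp e0.1) (mp e0.1) fk.P)) (cv (mp e0.1) (mp e0.1) fk.N)
        p.2 (cond (xor fk.par p.1.par) pb 0) w10 s10 w11 s11 (patN fk.s p.2.s)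
        (patN fk.r p.2.r) R1 S1 P1 Q1 k)
  rw [e3] at a4
  obtain ⟨s11, w11, e4, e4'⟩ := smag_eq (Nat.mul m (Nat.add u0 u3)) (Nat.mul m (Nat.add u1 u2))
    (fun s11 w11 =>
      rowL ct (Nat.add biasC (cv (mp e0.1) (mp e0.1) fk.P)) (cv (mp e0.1) (mp e0.1) fk.N)
        p.2 (cond (xor fk.par p.1.par) pb 0) w10 s10 w11 s11 (patN fk.s p.2.s)
        (patN fk.r p.2.r) R1 S1 P1 Q1 k)
  rw [e4, patN_eq p4 r4, patN_eq p3 r3] at a4
  obtain ⟨R2, S2, P2, Q2, V2, W2, b1, b2, b3, b4⟩ :=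
    rowL_sound hF h h2 (xor fk.par p.1.par) w10 s10 w11 s11 k (pat fk.s p.2.s) (pat fk.r p.2.r)
      R1 S1 P1 Q1 V1 W1 a1 a2 a4
  refine ⟨R2, S2, P2, Q2, V2, W2, b1, b2, ?_, b4⟩
  rw [b3, a3, vR_eq hF _ h h1, vR_eq hF _ h h2, e1', e2', e3', e4']
  have hfl : p.2.fl = tr p.1.fl := by rw [h3]; exact Fg.tr_fl h1
  rw [hfl]
  unfold pv
  have c1 : ∀ a b : ℕ, ((Nat.mul a b : ℕ) : ℝ) = (a : ℝ) * b := fun a b => Nat.cast_mul a b
  have c2 : ∀ a b : ℕ, ((Nat.add a b : ℕ) : ℝ) = (a : ℝ) + b := fun a b => Nat.cast_add a b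
  simp only [c1, c2, hmR]
  push_cast
  ring

/-- the row of a flag: the first `n` flags of `L`, then the flag itself. -/
noncomputable def rowN (ct : CT) (w oU4 MW A B : ℕ) (fk : Fg × Fg) (n : ℕ) :
    List (Fg × Fg) → ℕ → ℕ → ℕ → ℕ → ℕ → ℕ → AT → AT → (ℕ → AT → AT → Bool) → Bool :=
  Nat.rec (motive := fun _ => List (Fg × Fg) → ℕ → ℕ → ℕ → ℕ → ℕ → ℕ → AT → AT →
      (ℕ → AT → AT → Bool) → Bool)
    (fun _ U0 U1 U2 U3 R S P Q k =>
      seq (Nat.land U0 MW) fun u0 => seq (Nat.land U1 MW) fun u1 =>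
      seq (Nat.land U2 MW) fun u2 => seq (Nat.land U3 MW) fun u3 =>
      pair ct oU4 A B fk.1 fk 1 u0 u1 u2 u3 R S P Q fun _ S' P' Q' => k S' P' Q')
    (fun _ ih L U0 U1 U2 U3 R S P Q k => List.rec (motive := fun _ => Bool) false
      (fun f' L' _ =>
      seq (Nat.land U0 MW) fun u0 => seq (Nat.land U1 MW) fun u1 =>
      seq (Nat.land U2 MW) fun u2 => seq (Nat.land U3 MW) fun u3 =>
      pair ct oU4 A B fk.1 f' 2 u0 u1 u2 u3 R S P Q fun R' S' P' Q' =>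
      seq (Nat.shiftRight U0 w) fun V0 => seq (Nat.shiftRight U1 w) fun V1 =>
      seq (Nat.shiftRight U2 w) fun V2 => seq (Nat.shiftRight U3 w) fun V3 =>
      ih L' V0 V1 V2 V3 R' S' P' Q' k) L) n

/-- entry of the matrix. -/
noncomputable def qd (w oU U l : ℕ) : ℝ := (dg (2 ^ w) U l : ℝ) - oU

/-- value of a row. -/
noncomputable def rv' (F : Bool → Mt → ℝ) (w oU : ℕ) (fk : Fg × Fg) (n : ℕ)
    (L : List (Fg × Fg)) (U0 U1 U2 U3 : ℕ) : ℝ :=
  ∑ l ∈ range n, 2 * pv F fk.1 (L.getD l default).1 (qd w oU U0 l) (qd w oU U1 l) (qd w oU U2 l)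
      (qd w oU U3 l)
    + pv F fk.1 fk.1 (qd w oU U0 n) (qd w oU U1 n) (qd w oU U2 n) (qd w oU U3 n)

theorem dg_zero (w U : ℕ) : Nat.land U (2 ^ w - 1) = dg (2 ^ w) U 0 := by
  unfold dg
  rw [pow_zero, Nat.div_one]
  exact Nat.and_two_pow_sub_one_eq_mod U w

theorem dg_succ (w U l : ℕ) : dg (2 ^ w) (Nat.shiftRight U w) l = dg (2 ^ w) U (l + 1) := by
  unfold dg
  have : Nat.shiftRight U w = U / 2 ^ w := Nat.shiftRight_eq_div_pow U w
  rw [this, Nat.div_div_eq_div_mul, ← pow_succ']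

theorem qd_succ (w oU U l : ℕ) : qd w oU (Nat.shiftRight U w) l = qd w oU U (l + 1) := by
  unfold qd; rw [dg_succ]

theorem rowN_sound (hF : Cls F) {ct : CT} {w oU : ℕ} {fk : Fg × Fg} (h : okF fk = true)
    (k : ℕ → AT → AT → Bool) (n : ℕ) :
    ∀ (L : List (Fg × Fg)) (_ : ∀ g ∈ L, okF g = true) (U0 U1 U2 U3 R S : ℕ) (P Q : AT)
      (V W : ℝ), AF F ct P S V → AF F ct Q S W →
      rowN ct w (Nat.mul 4 oU) (2 ^ w - 1) (Nat.add biasC (cv (mp e0.1) (mp e0.1) fk.1.P))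
        (cv (mp e0.1) (mp e0.1) fk.1.N) fk n L U0 U1 U2 U3 R S P Q k = true →
      ∃ S' P' Q' V' W', AF F ct P' S' V' ∧ AF F ct Q' S' W' ∧
        V' - W' = V - W + rv' F w oU fk n L U0 U1 U2 U3 ∧ k S' P' Q' = true := by
  have h1 := (okF_spec h).1
  induction n with
  | zero =>
    intro L hL U0 U1 U2 U3 R S P Q V W hP hQ hk
    have hk' : (seq (Nat.land U0 (2 ^ w - 1)) fun u0 => seq (Nat.land U1 (2 ^ w - 1)) fun u1 =>
      seq (Nat.land U2 (2 ^ w - 1)) fun u2 => seq (Nat.land U3 (2 ^ w - 1)) fun u3 =>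
      pair ct (Nat.mul 4 oU) (Nat.add biasC (cv (mp e0.1) (mp e0.1) fk.1.P))
        (cv (mp e0.1) (mp e0.1) fk.1.N) fk.1 fk 1 u0 u1 u2 u3 R S P Q
        fun _ S' P' Q' => k S' P' Q') = true := hk
    simp only [seq_eq, dg_zero] at hk'
    obtain ⟨R', S', P', Q', V', W', a1, a2, a3, a4⟩ := pair_sound hF h1 h hP hQ _ hk'
    refine ⟨S', P', Q', V', W', a1, a2, ?_, a4⟩
    rw [a3]
    unfold rv' qd
    rw [sum_range_zero]
    push_cast
    ring
  | succ n ih =>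
    intro L hL U0 U1 U2 U3 R S P Q V W hP hQ hk
    cases L with
    | nil => exact absurd hk (by simp [rowN])
    | cons f' L =>
      have hk' : (seq (Nat.land U0 (2 ^ w - 1)) fun u0 => seq (Nat.land U1 (2 ^ w - 1)) fun u1 =>
        seq (Nat.land U2 (2 ^ w - 1)) fun u2 => seq (Nat.land U3 (2 ^ w - 1)) fun u3 =>
        pair ct (Nat.mul 4 oU) (Nat.add biasC (cv (mp e0.1) (mp e0.1) fk.1.P))
          (cv (mp e0.1) (mp e0.1) fk.1.N) fk.1 f' 2 u0 u1 u2 u3 R S P Q fun R' S' P' Q' =>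
        seq (Nat.shiftRight U0 w) fun V0 => seq (Nat.shiftRight U1 w) fun V1 =>
        seq (Nat.shiftRight U2 w) fun V2 => seq (Nat.shiftRight U3 w) fun V3 =>
        rowN ct w (Nat.mul 4 oU) (2 ^ w - 1) (Nat.add biasC (cv (mp e0.1) (mp e0.1) fk.1.P))
          (cv (mp e0.1) (mp e0.1) fk.1.N) fk n L V0 V1 V2 V3 R' S' P' Q' k) = true := hk
      simp only [seq_eq, dg_zero] at hk'
      obtain ⟨R1, S1, P1, Q1, V1, W1, a1, a2, a3, a4⟩ :=
        pair_sound hF h1 (hL f' List.mem_cons_self) hP hQ _ hk'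
      obtain ⟨S2, P2, Q2, V2, W2, b1, b2, b3, b4⟩ :=
        ih L (fun g hg => hL g (List.mem_cons_of_mem _ hg)) _ _ _ _ _ _ _ _ _ _ a1 a2 a4
      refine ⟨S2, P2, Q2, V2, W2, b1, b2, ?_, b4⟩
      rw [b3, a3]
      unfold rv'
      rw [Finset.sum_range_succ']
      simp only [qd_succ, List.getD_cons_succ, List.getD_cons_zero]
      unfold qd
      push_cast
      ring

/-- rows: (U0, U1, U2, U3, record). -/
abbrev RT : Type := ℕ × ℕ × ℕ × ℕ × ℕ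

/-- rows. -/
noncomputable def rowsG (ct : CT) (w oU4 MW a0 c0 : ℕ) (fl : List (Fg × Fg)) (T : List RT) :
    List (Fg × Fg) → ℕ → ℕ → AT → AT → (ℕ → AT → AT → Bool) → Bool :=
  List.rec (motive := fun _ => List (Fg × Fg) → ℕ → ℕ → AT → AT → (ℕ → AT → AT → Bool) → Bool)
    (fun _ _ S P Q k => k S P Q)
    (fun e _ ih K i S P Q k => List.rec (motive := fun _ => Bool) false
      (fun f K' _ => cs a0 c0 f.1.P 0 fun Kp => cs a0 c0 f.1.N 0 fun B =>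
        seq (Nat.add biasC Kp) fun A =>
        rowN ct w oU4 MW A B f i fl e.1 e.2.1 e.2.2.1 e.2.2.2.1 e.2.2.2.2 S P Q
          fun S' P' Q' => seq (Nat.succ i) fun i' => ih K' i' S' P' Q' k) K) T

/-- value of the rows. -/
noncomputable def Rvs (F : Bool → Mt → ℝ) (w oU : ℕ) (fl : List (Fg × Fg)) (T : List RT)
    (K : List (Fg × Fg)) (i : ℕ) : ℝ :=
  ∑ a ∈ range T.length, rv' F w oU (K.getD a default) (i + a) fl (T.getD a default).1
    (T.getD a default).2.1 (T.getD a default).2.2.1 (T.getD a default).2.2.2.1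

theorem rowsG_sound (hF : Cls F) {ct : CT} {w oU : ℕ} {fl : List (Fg × Fg)}
    (hfl : ∀ g ∈ fl, okF g = true) (k : ℕ → AT → AT → Bool) (T : List RT) :
    ∀ (K : List (Fg × Fg)) (_ : ∀ g ∈ K, okF g = true) (i S : ℕ) (P Q : AT) (V W : ℝ),
      AF F ct P S V → AF F ct Q S W →
      rowsG ct w (Nat.mul 4 oU) (2 ^ w - 1) (pr e0.1) (pc e0.1) fl T K i S P Q k = true →
      ∃ S' P' Q' V' W', AF F ct P' S' V' ∧ AF F ct Q' S' W' ∧
        V' - W' = V - W + Rvs F w oU fl T K i ∧ k S' P' Q' = true := by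
  induction T with
  | nil =>
    intro K hK i S P Q V W hP hQ hk
    exact ⟨S, P, Q, V, W, hP, hQ, by simp [Rvs], hk⟩
  | cons e T ih =>
    intro K hK i S P Q V W hP hQ hk
    cases K with
    | nil => exact absurd hk (by simp [rowsG])
    | cons f K =>
      have hf := hK f List.mem_cons_self
      obtain ⟨q1, q2, q3, q4, -⟩ := Fg.ok_spec (okF_spec hf).1
      have hk' : (cs (pr e0.1) (pc e0.1) f.1.P 0 fun Kp => cs (pr e0.1) (pc e0.1) f.1.N 0 fun B =>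
        seq (Nat.add biasC Kp) fun A =>
        rowN ct w (Nat.mul 4 oU) (2 ^ w - 1) A B f i fl e.1 e.2.1 e.2.2.1 e.2.2.2.1 e.2.2.2.2
          S P Q fun S' P' Q' => seq (Nat.succ i) fun i' =>
            rowsG ct w (Nat.mul 4 oU) (2 ^ w - 1) (pr e0.1) (pc e0.1) fl T K i' S' P' Q' k)
            = true := hk
      rw [cs_eq (pkR e0.1) (pkC e0.1) q3 q4 _ q1, cs_eq (pkR e0.1) (pkC e0.1) q3 q4 _ q2,
        seq_eq, Nat.zero_add, Nat.zero_add] at hk'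
      obtain ⟨S1, P1, Q1, V1, W1, a1, a2, a3, a4⟩ :=
        rowN_sound hF hf _ _ fl hfl _ _ _ _ _ _ _ _ _ _ hP hQ hk'
      rw [seq_eq] at a4
      obtain ⟨S2, P2, Q2, V2, W2, b1, b2, b3, b4⟩ :=
        ih K (fun g hg => hK g (List.mem_cons_of_mem _ hg)) _ _ _ _ _ _ a1 a2 a4
      refine ⟨S2, P2, Q2, V2, W2, b1, b2, ?_, b4⟩
      rw [b3, a3]
      unfold Rvs
      rw [List.length_cons, Finset.sum_range_succ']
      simp only [List.getD_cons_succ, List.getD_cons_zero, add_zero]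
      have e : ∀ a, Nat.succ i + a = i + (a + 1) := fun a => by omega
      simp only [e]
      ring

/-- the check of a chunk of rows (starting with row `i`). -/
noncomputable def ckV (ct : CT) (fl : List (Fg × Fg)) (w oU i : ℕ) (T : List RT)
    (out : List (ℕ × ℕ)) : Bool :=
  seq (Nat.sub (Nat.pow 2 w) 1) fun MW => seq (Nat.mul 4 oU) fun oU4 =>
  seq (pr e0.1) fun a0 => seq (pc e0.1) fun c0 =>
  rowsG ct w oU4 MW a0 c0 fl T (fl.drop i) i 0 (zeroT ct) (zeroT ct) fun S P Q =>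
    loadL out S Q P fun S' Q' P' => cond (Nat.blt S' 9223372036854775808) (eqT P' Q') false

theorem ckV_sound (hF : Cls F) {ct : CT} {w oU : ℕ} {fl : List (Fg × Fg)}
    (hfl : fl.all okF = true) {i : ℕ} {T : List RT}
    {out : List (ℕ × ℕ)} (h : ckV ct fl w oU i T out = true) :
    Rvs F w oU fl T (fl.drop i) i = evL F ct out := by
  unfold ckV at h
  simp only [seq_eq] at h
  rw [List.all_eq_true] at hfl
  obtain ⟨S1, P1, Q1, V1, W1, a1, a2, a3, a4⟩ := rowsG_sound hF hfl _ T (fl.drop i)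
    (fun g hg => hfl g (List.mem_of_mem_drop hg)) i 0 _ _ 0 0 (H387.AF.zero ct) (H387.AF.zero ct) h
  obtain ⟨S2, Q2, P2, W2, V2, b1, b2, b3, b4⟩ := loadL_sound _ _ _ _ _ _ _ a2 a1 a4
  cases hz : Nat.blt S2 9223372036854775808 with
  | false => rw [hz] at b4; simp at b4
  | true =>
    rw [hz] at b4
    simp only [cond_true] at b4
    have hS : S2 < 2 ^ 63 := by
      rw [Nat.blt_eq] at hz
      norm_num; exact hz
    have := eqT_sound b2 b1 hS hS b4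
    linarith

end Vale.Agent.P355.H129V
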