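import Vale.Agent.P355.H129V.Fg

/-! Products of flags: numbers, patterns, insertion. -/

namespace Vale.Agent.P355.H129V

open Finset Vale.Agent.P355 Vale.Agent.P355.H138 Vale.Agent.P355.H693.Inj
open Vale.Agent.P355.H387 (NM toM toM3 GP Enc Cls ofD df df_cast ofD_df GP_sum biasC biasC_sum
  f9 f6 seq seq_eq idx_lt7 push_toM3 abs_GP_le tm tm_sound CT AF AT pb)
open Vale.Agent.P355.H693W (SupR ph e0 tr ng sF tF pat sF_pat push_ng)

/-- product matrix: difference (`s = false`) or sum. -/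
def Mc (s : Bool) (a0 c0 a c : ℕ → ℕ) (f f' : Fg) : NM := fun i j =>
  GP a0 c0 f.arr i j + (if s then GP a c f'.arr i j else - GP a c f'.arr i j)

theorem Mc_bd (s : Bool) (a0 c0 a c : ℕ → ℕ) {f f' : Fg} (h : f.ok = true) (h' : f'.ok = true)
    (i j : ℕ) : |Mc s a0 c0 a c f f' i j| ≤ 31 := by
  have h1 := (abs_GP_le a0 c0 f.arr i j).trans (wt4_arr h)
  have h2 := (abs_GP_le a c f'.arr i j).trans (wt4_arr h')
  rw [abs_le] at h1 h2 ⊢
  unfold Mc
  cases s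
  · simp only [Bool.false_eq_true, if_false]; constructor <;> linarith
  · simp only [if_true]; constructor <;> linarith

theorem code_Mc (s : Bool) {a0 c0 a c : ℕ → ℕ} (ha0 : ∀ i < 4, a0 i < 7) (hc0 : ∀ i < 4, c0 i < 7)
    (ha : ∀ i < 4, a i < 7) (hc : ∀ i < 4, c i < 7) {f f' : Fg} (h : f.ok = true)
    (h' : f'.ok = true) :
    (ofD 49 (df (Mc s a0 c0 a c f f')) : ℤ) = biasC + ((cv a0 c0 f.P : ℤ) - cv a0 c0 f.N)
      + (if s then ((cv a c f'.P : ℤ) - cv a c f'.N) else - ((cv a c f'.P : ℤ) - cv a c f'.N)) := by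
  obtain ⟨p1, p2, p3, p4, -⟩ := Fg.ok_spec h
  obtain ⟨q1, q2, q3, q4, -⟩ := Fg.ok_spec h'
  rw [ofD_df _ fun i _ j _ => Mc_bd s a0 c0 a c h h' i j, biasC_sum]
  have e1 : ∀ (a c : ℕ → ℕ) (_ : ∀ i < 4, a i < 7) (_ : ∀ i < 4, c i < 7) (f : Fg)
      (_ : f.ok = true), ∑ i ∈ range 7, ∑ j ∈ range 7, GP a c f.arr i j * (64 : ℤ) ^ (7 * i + j)
      = (cv a c f.P : ℤ) - cv a c f.N := by
    intro a c ha hc f hf
    obtain ⟨r1, r2, r3, r4, -⟩ := Fg.ok_spec hf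
    rw [GP_sum a c ha hc, cv_sum r3 r4 r1, cv_sum r3 r4 r2, ← sum_sub_distrib]
    refine sum_congr rfl fun i _ => ?_
    rw [← sum_sub_distrib]
    refine sum_congr rfl fun j _ => ?_
    unfold Fg.arr; ring
  rw [← e1 a0 c0 ha0 hc0 f h, ← e1 a c ha hc f' h']
  cases s
  · simp only [Bool.false_eq_true, if_false]
    rw [← sum_neg_distrib, ← sum_add_distrib, ← sum_add_distrib]
    refine sum_congr rfl fun i _ => ?_
    rw [← sum_neg_distrib, ← sum_add_distrib, ← sum_add_distrib]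
    refine sum_congr rfl fun j _ => ?_
    unfold Mc
    simp only [Bool.false_eq_true, if_false]
    ring
  · simp only [if_true]
    rw [← sum_add_distrib, ← sum_add_distrib]
    refine sum_congr rfl fun i _ => ?_
    rw [← sum_add_distrib, ← sum_add_distrib]
    refine sum_congr rfl fun j _ => ?_
    unfold Mc
    simp only [if_true]
    ring

theorem enc_sub {a0 c0 a c : ℕ → ℕ} (ha0 : ∀ i < 4, a0 i < 7) (hc0 : ∀ i < 4, c0 i < 7)
    (ha : ∀ i < 4, a i < 7) (hc : ∀ i < 4, c i < 7) {f f' : Fg} (h : f.ok = true)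
    (h' : f'.ok = true) :
    Enc (Nat.sub (Nat.add (Nat.add biasC (cv a0 c0 f.P)) (cv a c f'.N))
      (Nat.add (cv a0 c0 f.N) (cv a c f'.P))) (Mc false a0 c0 a c f f') := by
  refine ⟨?_, fun i _ j _ => Mc_bd false a0 c0 a c h h' i j⟩
  have h1 := code_Mc false ha0 hc0 ha hc h h'
  simp only [Bool.false_eq_true, if_false] at h1
  show biasC + cv a0 c0 f.P + cv a c f'.N - (cv a0 c0 f.N + cv a c f'.P) = _
  generalize ofD 49 (df (Mc false a0 c0 a c f f')) = Y at h1 ⊢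
  omega

theorem enc_add {a0 c0 a c : ℕ → ℕ} (ha0 : ∀ i < 4, a0 i < 7) (hc0 : ∀ i < 4, c0 i < 7)
    (ha : ∀ i < 4, a i < 7) (hc : ∀ i < 4, c i < 7) {f f' : Fg} (h : f.ok = true)
    (h' : f'.ok = true) :
    Enc (Nat.sub (Nat.add (Nat.add biasC (cv a0 c0 f.P)) (cv a c f'.P))
      (Nat.add (cv a0 c0 f.N) (cv a c f'.N))) (Mc true a0 c0 a c f f') := by
  refine ⟨?_, fun i _ j _ => Mc_bd true a0 c0 a c h h' i j⟩
  have h1 := code_Mc true ha0 hc0 ha hc h h'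
  simp only [if_true] at h1
  show biasC + cv a0 c0 f.P + cv a c f'.P - (cv a0 c0 f.N + cv a c f'.N) = _
  generalize ofD 49 (df (Mc true a0 c0 a c f f')) = Y at h1 ⊢
  omega

/-! ### Placements -/

/-- the placement in numbers. -/
def mp (e : Fin 5 × Fin 5) (i : ℕ) : ℕ :=
  if i = 0 then 0 else if i = 1 then 1 else if i = 2 then e.1.val + 2 else e.2.val + 2

theorem mp_lt (e : Fin 5 × Fin 5) : ∀ i < 4, mp e i < 7 := by
  intro i _
  unfold mp
  have := e.1.isLt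
  have := e.2.isLt
  split_ifs <;> omega

theorem mp_idx (e : Fin 5 × Fin 5) (p : Option (Fin 3)) : idx (p.map (ph e)) = mp e (idx p) := by
  rcases p with _ | i
  · rfl
  · fin_cases i
    · rfl
    · show (e.1.succ).val + 1 = e.1.val + 2
      rw [Fin.val_succ]
    · show (e.2.succ).val + 1 = e.2.val + 2
      rw [Fin.val_succ]

/-- packed rows. -/
def pr (e : Fin 5 × Fin 5) : ℕ :=
  42 * 2 ^ 9 + 42 * (e.1.val + 2) * 2 ^ 18 + 42 * (e.2.val + 2) * 2 ^ 27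
/-- packed columns. -/
def pc (e : Fin 5 × Fin 5) : ℕ :=
  6 * 2 ^ 6 + 6 * (e.1.val + 2) * 2 ^ 12 + 6 * (e.2.val + 2) * 2 ^ 18

theorem pk_tab : ∀ a b : Fin 5, ∀ i < 4, f9 (pr (a, b)) i = 42 * mp (a, b) i ∧
    f6 (pc (a, b)) i = 6 * mp (a, b) i := by decide +kernel

theorem pkR (e : Fin 5 × Fin 5) : PkR (pr e) (mp e) := fun i hi => (pk_tab e.1 e.2 i hi).1
theorem pkC (e : Fin 5 × Fin 5) : PkC (pc e) (mp e) := fun i hi => (pk_tab e.1 e.2 i hi).2

/-- entry of a pattern in numbers. -/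
def en (p : ℕ × (Fin 5 × Fin 5)) : ℕ × ℕ × ℕ := (p.1, pr p.2, pc p.2)

/-- patterns in numbers. -/
def patN (rk rl : ℕ) : List (ℕ × ℕ × ℕ) :=
  Nat.rec (motive := fun _ => List (ℕ × ℕ × ℕ)) [(20, 28229784576, 7963008)]
    (fun l _ => Nat.rec (motive := fun _ => List (ℕ × ℕ × ℕ))
      (Nat.rec (motive := fun _ => List (ℕ × ℕ × ℕ)) [(20, 28229784576, 7963008)]
        (fun k _ => Nat.rec (motive := fun _ => List (ℕ × ℕ × ℕ)) [(4, 28207764480, 7913856), (16, 28229784576, 7963008)]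
          (fun _ _ => [(4, 28207764480, 7913856), (4, 28218774528, 7938432), (12, 28229784576, 7963008)]) k) rk)
      (fun _ _ => Nat.rec (motive := fun _ => List (ℕ × ℕ × ℕ)) [(20, 28229784576, 7963008)]
        (fun k _ => Nat.rec (motive := fun _ => List (ℕ × ℕ × ℕ)) [(4, 22570619904, 6340992), (4, 11318350848, 3244416), (12, 28229784576, 7963008)]
          (fun _ _ => [(1, 16933475328, 4768128), (1, 11307340800, 3219840), (3, 22570619904, 6340992), (3, 11318350848, 3244416), (3, 22581629952, 6365568), (3, 16955495424, 4817280), (6, 28229784576, 7963008)]) k) rk) l) rl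

theorem patN_tab : ∀ rk : Fin 3, ∀ rl : Fin 3, patN rk rl = (pat rk rl).map en := by
  decide +kernel

theorem patN_eq {rk rl : ℕ} (hk : rk < 3) (hl : rl < 3) : patN rk rl = (pat rk rl).map en :=
  patN_tab ⟨rk, hk⟩ ⟨rl, hl⟩

/-! ### Insertion -/

variable {F : Bool → Mt → ℝ}

/-- signed insertion. -/
noncomputable def tmS (ct : CT) (X off rc lam sg : ℕ) (P Q : AT) (k : AT → AT → Bool) : Bool :=
  Nat.rec (motive := fun _ => Bool) (tm ct X off rc lam P fun P' => k P' Q)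
    (fun _ _ => tm ct X off rc lam Q fun Q' => k P Q') sg

/-- signed weight. -/
def sw (sg lam : ℕ) : ℤ := if sg = 0 then (lam : ℤ) else - (lam : ℤ)

theorem tmS_sound (hF : Cls F) {ct : CT} {X : ℕ} {G : NM} (h : Enc X G) (b : Bool)
    (rc lam sg : ℕ) {P Q : AT} {S : ℕ} {V W : ℝ} (hP : AF F ct P S V) (hQ : AF F ct Q S W)
    (k : AT → AT → Bool) (hk : tmS ct X (cond b pb 0) rc lam sg P Q k = true) :
    ∃ P' Q' V' W', AF F ct P' (S + lam + 1) V' ∧ AF F ct Q' (S + lam + 1) W' ∧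
      V' - W' = V - W + (sw sg lam : ℝ) * F b (toM G) ∧ k P' Q' = true := by
  cases sg with
  | zero =>
    obtain ⟨P', a1, a2⟩ := tm_sound hF h b rc lam hP (fun P' => k P' Q) hk
    refine ⟨P', Q, _, _, a1, hQ.mono (by omega), ?_, a2⟩
    have : (sw 0 lam : ℝ) = lam := by unfold sw; rw [if_pos rfl]; push_cast; rfl
    rw [this]; ring
  | succ sg =>
    obtain ⟨Q', a1, a2⟩ := tm_sound hF h b rc lam hQ (fun Q' => k P Q') hk
    refine ⟨P, Q', _, _, hP.mono (by omega), a1, ?_, a2⟩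
    have : (sw (sg + 1) lam : ℝ) = - lam := by
      unfold sw; rw [if_neg (Nat.succ_ne_zero sg)]; push_cast; rfl
    rw [this]; ring

/-- columns: `A = bias + K⁺`, `B = K⁻`. -/
noncomputable def colL (ct : CT) (A B : ℕ) (f : Fg) (off w0 s0 w1 s1 m ra : ℕ)
    (L : List (ℕ × ℕ × ℕ)) : ℕ → ℕ → AT → AT → (ℕ → ℕ → AT → AT → Bool) → Bool :=
  List.rec (motive := fun _ => ℕ → ℕ → AT → AT → (ℕ → ℕ → AT → AT → Bool) → Bool)
    (fun R S P Q k => k R S P Q)
    (fun e _ ih R S P Q k =>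
      cs ra e.2.2 f.P 0 fun Zp => cs ra e.2.2 f.N 0 fun Zn =>
      seq (Nat.mul m e.1) fun mm => seq (Nat.mul mm w0) fun c0 => seq (Nat.mul mm w1) fun c1 =>
      seq (Nat.sub (Nat.add A Zn) (Nat.add B Zp)) fun X0 =>
      seq (Nat.land R 1099511627775) fun r0 =>
      tmS ct X0 off r0 c0 s0 P Q fun P1 Q1 =>
      seq (Nat.sub (Nat.add A Zp) (Nat.add B Zn)) fun X1 =>
      seq (Nat.land (Nat.shiftRight R 40) 1099511627775) fun r1 =>
      tmS ct X1 off r1 c1 s1 P1 Q1 fun P2 Q2 =>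
      seq (Nat.shiftRight R 80) fun R' =>
      seq (Nat.add S (Nat.add (Nat.succ c0) (Nat.succ c1))) fun S' => ih R' S' P2 Q2 k) L

/-- value of a product. -/
noncomputable def tv (F : Bool → Mt → ℝ) (b : Bool) (f f' : Fg) (C0 C1 : ℝ)
    (p q : Fin 5 × Fin 5) : ℝ :=
  C0 * F b (toM (Mc false (mp e0.1) (mp e0.1) (mp p) (mp q) f f')) +
  C1 * F b (toM (Mc true (mp e0.1) (mp e0.1) (mp p) (mp q) f f'))

/-- value of the columns. -/
noncomputable def vC (F : Bool → Mt → ℝ) (b : Bool) (f f' : Fg) (C0 C1 : ℝ) (m : ℕ)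
    (p : Fin 5 × Fin 5) (L : List (ℕ × (Fin 5 × Fin 5))) : ℝ :=
  (L.map fun q => (m : ℝ) * (q.1 : ℝ) * tv F b f f' C0 C1 p q.2).sum

theorem sw_mul (sg m lam : ℕ) : (sw sg (m * lam) : ℝ) = m * (sw sg lam : ℝ) := by
  unfold sw; split_ifs <;> push_cast <;> ring

theorem colL_sound (hF : Cls F) {ct : CT} {f f' : Fg} (h : f.ok = true) (h' : f'.ok = true)
    (b : Bool) (w0 s0 w1 s1 m : ℕ) (p : Fin 5 × Fin 5) (k : ℕ → ℕ → AT → AT → Bool)
    (L : List (ℕ × (Fin 5 × Fin 5))) :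
    ∀ (R S : ℕ) (P Q : AT) (V W : ℝ), AF F ct P S V → AF F ct Q S W →
      colL ct (Nat.add biasC (cv (mp e0.1) (mp e0.1) f.P)) (cv (mp e0.1) (mp e0.1) f.N) f'
        (cond b pb 0) w0 s0 w1 s1 m (pr p) (L.map en) R S P Q k = true →
      ∃ R' S' P' Q' V' W', AF F ct P' S' V' ∧ AF F ct Q' S' W' ∧
        V' - W' = V - W + vC F b f f' (sw s0 w0) (sw s1 w1) m p L ∧ k R' S' P' Q' = true := by
  obtain ⟨q1, q2, q3, q4, -⟩ := Fg.ok_spec h'
  induction L with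
  | nil =>
    intro R S P Q V W hP hQ hk
    exact ⟨R, S, P, Q, V, W, hP, hQ, by simp [vC], hk⟩
  | cons q L ih =>
    intro R S P Q V W hP hQ hk
    set A := Nat.add biasC (cv (mp e0.1) (mp e0.1) f.P) with hA
    set B := cv (mp e0.1) (mp e0.1) f.N with hB
    have hstep : colL ct A B f' (cond b pb 0) w0 s0 w1 s1 m (pr p) ((q :: L).map en) R S P Q k =
      (cs (pr p) (pc q.2) f'.P 0 fun Zp => cs (pr p) (pc q.2) f'.N 0 fun Zn =>
      seq (Nat.mul m q.1) fun mm => seq (Nat.mul mm w0) fun c0 => seq (Nat.mul mm w1) fun c1 =>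
      seq (Nat.sub (Nat.add A Zn) (Nat.add B Zp)) fun X0 =>
      seq (Nat.land R 1099511627775) fun r0 =>
      tmS ct X0 (cond b pb 0) r0 c0 s0 P Q fun P1 Q1 =>
      seq (Nat.sub (Nat.add A Zp) (Nat.add B Zn)) fun X1 =>
      seq (Nat.land (Nat.shiftRight R 40) 1099511627775) fun r1 =>
      tmS ct X1 (cond b pb 0) r1 c1 s1 P1 Q1 fun P2 Q2 =>
      seq (Nat.shiftRight R 80) fun R' =>
      seq (Nat.add S (Nat.add (Nat.succ c0) (Nat.succ c1))) fun S' =>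
        colL ct A B f' (cond b pb 0) w0 s0 w1 s1 m (pr p) (L.map en) R' S' P2 Q2 k) := rfl
    rw [hstep, cs_eq (pkR p) (pkC q.2) q3 q4 _ q1, cs_eq (pkR p) (pkC q.2) q3 q4 _ q2] at hk
    simp only [seq_eq, Nat.zero_add] at hk
    have hX0 := enc_sub (mp_lt e0.1) (mp_lt e0.1) (mp_lt p) (mp_lt q.2) h h'
    have hX1 := enc_add (mp_lt e0.1) (mp_lt e0.1) (mp_lt p) (mp_lt q.2) h h'
    obtain ⟨P1, Q1, V1, W1, a1, a2, a3, a4⟩ := tmS_sound hF hX0 b _ _ _ hP hQ _ hk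
    obtain ⟨P2, Q2, V2, W2, b1, b2, b3, b4⟩ := tmS_sound hF hX1 b _ _ _ a1 a2 _ a4
    have hS : S + Nat.mul (Nat.mul m q.1) w0 + 1 + Nat.mul (Nat.mul m q.1) w1 + 1
        = Nat.add S (Nat.add (Nat.succ (Nat.mul (Nat.mul m q.1) w0))
          (Nat.succ (Nat.mul (Nat.mul m q.1) w1))) := by
      show _ = S + ((Nat.mul (Nat.mul m q.1) w0 + 1) + (Nat.mul (Nat.mul m q.1) w1 + 1))
      ring
    rw [hS] at b1 b2
    obtain ⟨R', S', P', Q', V', W', c1, c2, c3, c4⟩ := ih _ _ _ _ _ _ b1 b2 b4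
    refine ⟨R', S', P', Q', V', W', c1, c2, ?_, c4⟩
    rw [c3, b3, a3]
    unfold vC tv
    rw [List.map_cons, List.sum_cons]
    have e1 : (sw s0 (Nat.mul (Nat.mul m q.1) w0) : ℝ) = (m : ℝ) * (q.1 : ℝ) * (sw s0 w0 : ℝ) := by
      have := sw_mul s0 (m * q.1) w0
      push_cast at this
      exact this
    have e2 : (sw s1 (Nat.mul (Nat.mul m q.1) w1) : ℝ) = (m : ℝ) * (q.1 : ℝ) * (sw s1 w1 : ℝ) := by
      have := sw_mul s1 (m * q.1) w1
      push_cast at this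
      exact this
    rw [e1, e2]
    ring

/-- rows of patterns. -/
noncomputable def rowL (ct : CT) (A B : ℕ) (f : Fg) (off w0 s0 w1 s1 : ℕ)
    (Lc : List (ℕ × ℕ × ℕ)) (L : List (ℕ × ℕ × ℕ)) :
    ℕ → ℕ → AT → AT → (ℕ → ℕ → AT → AT → Bool) → Bool :=
  List.rec (motive := fun _ => ℕ → ℕ → AT → AT → (ℕ → ℕ → AT → AT → Bool) → Bool)
    (fun R S P Q k => k R S P Q)
    (fun e _ ih R S P Q k =>
      colL ct A B f off w0 s0 w1 s1 e.1 e.2.1 Lc R S P Q fun R' S' P' Q' => ih R' S' P' Q' k) L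

/-- value of the rows. -/
noncomputable def vR (F : Bool → Mt → ℝ) (b : Bool) (f f' : Fg) (C0 C1 : ℝ)
    (Lc L : List (ℕ × (Fin 5 × Fin 5))) : ℝ :=
  (L.map fun p => vC F b f f' C0 C1 p.1 p.2 Lc).sum

theorem rowL_sound (hF : Cls F) {ct : CT} {f f' : Fg} (h : f.ok = true) (h' : f'.ok = true)
    (b : Bool) (w0 s0 w1 s1 : ℕ) (k : ℕ → ℕ → AT → AT → Bool)
    (Lc L : List (ℕ × (Fin 5 × Fin 5))) :
    ∀ (R S : ℕ) (P Q : AT) (V W : ℝ), AF F ct P S V → AF F ct Q S W →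
      rowL ct (Nat.add biasC (cv (mp e0.1) (mp e0.1) f.P)) (cv (mp e0.1) (mp e0.1) f.N) f'
        (cond b pb 0) w0 s0 w1 s1 (Lc.map en) (L.map en) R S P Q k = true →
      ∃ R' S' P' Q' V' W', AF F ct P' S' V' ∧ AF F ct Q' S' W' ∧
        V' - W' = V - W + vR F b f f' (sw s0 w0) (sw s1 w1) Lc L ∧ k R' S' P' Q' = true := by
  induction L with
  | nil =>
    intro R S P Q V W hP hQ hk
    exact ⟨R, S, P, Q, V, W, hP, hQ, by simp [vR], hk⟩
  | cons p L ih =>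
    intro R S P Q V W hP hQ hk
    obtain ⟨R1, S1, P1, Q1, V1, W1, a1, a2, a3, a4⟩ :=
      colL_sound hF h h' b w0 s0 w1 s1 p.1 p.2 _ Lc R S P Q V W hP hQ hk
    obtain ⟨R', S', P', Q', V', W', c1, c2, c3, c4⟩ := ih _ _ _ _ _ _ a1 a2 a4
    refine ⟨R', S', P', Q', V', W', c1, c2, ?_, c4⟩
    rw [c3, a3]
    unfold vR
    rw [List.map_cons, List.sum_cons]
    ring

theorem toM_Mc (s : Bool) (e e' p q : Fin 5 × Fin 5) (f f' : Fg) :
    toM (Mc s (mp e) (mp e') (mp p) (mp q) f f') = fun i j =>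
      push (ph e) (ph e') f.fl i j + (if s then push (ph p) (ph q) f'.fl i j
        else - push (ph p) (ph q) f'.fl i j) := by
  unfold Fg.fl
  rw [push_toM3 f.arr (ph e) (ph e') (mp e) (mp e') (mp_idx e) (mp_idx e'),
    push_toM3 f'.arr (ph p) (ph q) (mp p) (mp q) (mp_idx p) (mp_idx q)]
  rfl

theorem sup_ng {r : ℕ} {n : H693W.Fl} (h : SupR r n) : SupR r (ng n) := fun i hi q => by
  show - n (some i) q = 0
  rw [h i hi q, neg_zero]

/-- **value of the products of two flags.** -/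
theorem vR_eq (hF : Cls F) (b : Bool) {f f' : Fg} (h : f.ok = true) (h' : f'.ok = true)
    (C0 C1 : ℝ) :
    vR F b f f' C0 C1 (pat f.s f'.s) (pat f.r f'.r)
      = C0 * sF F b f.fl f'.fl + C1 * sF F b f.fl (ng f'.fl) := by
  obtain ⟨-, -, p3, p4, -⟩ := Fg.ok_spec h
  obtain ⟨-, -, q3, q4, -⟩ := Fg.ok_spec h'
  have hn : H693W.tr (ng f'.fl) = ng (H693W.tr f'.fl) := rfl
  rw [sF_pat hF b p3 q3 p4 q4 (Fg.sup h) (Fg.sup h') (Fg.supT h) (Fg.supT h'),
    sF_pat hF b p3 q3 p4 q4 (Fg.sup h) (sup_ng (Fg.sup h')) (Fg.supT h)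
      (by rw [hn]; exact sup_ng (Fg.supT h'))]
  unfold vR vC tv
  have key : ∀ (l : List (ℕ × (Fin 5 × Fin 5))) (g g0 g1 : ℕ × (Fin 5 × Fin 5) → ℝ),
      (∀ p, g p = C0 * g0 p + C1 * g1 p) →
      (l.map g).sum = C0 * (l.map g0).sum + C1 * (l.map g1).sum := by
    intro l g g0 g1 hg
    induction l with
    | nil => simp
    | cons a l ih =>
      simp only [List.map_cons, List.sum_cons, ih, hg]
      ring
  refine key _ _ _ _ fun p => ?_
  rw [← mul_assoc, ← mul_assoc, mul_comm C0, mul_comm C1, mul_assoc, mul_assoc, ← mul_add,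
    ← key (pat f.s f'.s) (fun q => (q.1 : ℝ) * (C0 *
      tF F b f.fl f'.fl (ph e0.1) (ph e0.1) (ph p.2) (ph q.2) + C1 *
      tF F b f.fl (ng f'.fl) (ph e0.1) (ph e0.1) (ph p.2) (ph q.2))) _ _ (fun q => by ring)]
  have key2 : ∀ (l : List (ℕ × (Fin 5 × Fin 5))) (g g' : ℕ × (Fin 5 × Fin 5) → ℝ) (m : ℝ),
      (∀ q, g q = m * g' q) → (l.map g).sum = m * (l.map g').sum := by
    intro l g g' m hg
    induction l with
    | nil => simp
    | cons a l ih =>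
      simp only [List.map_cons, List.sum_cons, ih, hg]
      ring
  refine key2 _ _ _ _ fun q => ?_
  have e1 : F b (toM (Mc false (mp e0.1) (mp e0.1) (mp p.2) (mp q.2) f f'))
      = tF F b f.fl f'.fl (ph e0.1) (ph e0.1) (ph p.2) (ph q.2) := by
    rw [toM_Mc]
    unfold tF
    congr 1
  have e2 : F b (toM (Mc true (mp e0.1) (mp e0.1) (mp p.2) (mp q.2) f f'))
      = tF F b f.fl (ng f'.fl) (ph e0.1) (ph e0.1) (ph p.2) (ph q.2) := by
    rw [toM_Mc]
    unfold tF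
    congr 1
    funext i j
    rw [push_ng]
    simp
  rw [e1, e2]
  ring

end Vale.Agent.P355.H129V
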