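import Vale.Agent.P355.H693W.Pat
import Vale.Agent.P355.H387.RowChk

/-! Flags with up to two internal rows and columns: lists of cells and their numbers. -/

namespace Vale.Agent.P355.H129V

open Finset Vale.Agent.P355 Vale.Agent.P355.H138 Vale.Agent.P355.H693.Inj
open Vale.Agent.P355.H387 (NM toM toM3 GP Enc Cls ofD df df_cast ofD_df GP_sum biasC biasC_sum
  f9 f6 seq seq_eq idx_lt7 push_toM3)
open Vale.Agent.P355.H693W (SupR ph e0 tr ng sF tF pat)

/-- lists of cells: (9 * row, 6 * column, exponent). -/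
abbrev CL : Type := List (ℕ × ℕ × ℕ)

/-- the matrix of a list of cells. -/
def arrL (L : CL) : NM := fun i j =>
  (L.map fun e => if e.1 = 9 * i ∧ e.2.1 = 6 * j then (e.2.2 : ℤ) else 0).sum

/-- flags: positive and negative cells, parity, number of internal rows and columns. -/
structure Fg where
  P : CL
  N : CL
  b : ℕ
  r : ℕ
  s : ℕ

instance : Inhabited Fg := ⟨⟨[], [], 0, 0, 0⟩⟩

/-- the matrix of a flag. -/
def Fg.arr (f : Fg) : NM := fun i j => arrL f.P i j - arrL f.N i j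

/-- the parity. -/
def Fg.par (f : Fg) : Bool := decide (f.b ≠ 0)

/-- check of the cells. -/
def okL (r s : ℕ) (L : CL) : Bool :=
  L.all fun e => Nat.beq (9 * (e.1 / 9)) e.1 && (Nat.ble (e.1 / 9) (r + 1) &&
    (Nat.beq (6 * (e.2.1 / 6)) e.2.1 && Nat.ble (e.2.1 / 6) (s + 1)))

/-- total of the exponents. -/
def wtL (L : CL) : ℕ := (L.map fun e => e.2.2).sum

/-- check of a flag. -/
def Fg.ok (f : Fg) : Bool :=
  okL f.r f.s f.P && (okL f.r f.s f.N && (Nat.ble f.r 2 && (Nat.ble f.s 2 &&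
    Nat.ble (wtL f.P + wtL f.N) 15)))

/-- transposed cells. -/
def swL (L : CL) : CL := L.map fun e => (9 * (e.2.1 / 6), 6 * (e.1 / 9), e.2.2)

/-- transposed flag. -/
def Fg.tr (f : Fg) : Fg := ⟨swL f.P, swL f.N, f.b, f.s, f.r⟩

theorem arrL_nil (i j : ℕ) : arrL [] i j = 0 := rfl

theorem arrL_cons (e : ℕ × ℕ × ℕ) (L : CL) (i j : ℕ) :
    arrL (e :: L) i j = (if e.1 = 9 * i ∧ e.2.1 = 6 * j then (e.2.2 : ℤ) else 0) + arrL L i j := by
  unfold arrL; rw [List.map_cons, List.sum_cons]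

theorem arrL_nonneg (L : CL) (i j : ℕ) : 0 ≤ arrL L i j := by
  induction L with
  | nil => exact le_rfl
  | cons e L ih =>
    rw [arrL_cons]
    split_ifs
    · positivity
    · simpa using ih

theorem arrL_sup {r s : ℕ} {L : CL} (h : okL r s L = true) (i j : ℕ)
    (hij : r + 1 < i ∨ s + 1 < j) : arrL L i j = 0 := by
  induction L with
  | nil => rfl
  | cons e L ih =>
    unfold okL at h
    rw [List.all_cons, Bool.and_eq_true] at h
    rw [arrL_cons, ih h.2, add_zero, if_neg]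
    rintro ⟨h1, h2⟩
    have h3 := h.1
    simp only [Bool.and_eq_true] at h3
    obtain ⟨a1, a2, a3, a4⟩ := h3
    have a2' := Nat.le_of_ble_eq_true a2
    have a4' := Nat.le_of_ble_eq_true a4
    omega

theorem arrL_sw {r s : ℕ} {L : CL} (h : okL r s L = true) (i j : ℕ) :
    arrL (swL L) i j = arrL L j i := by
  induction L with
  | nil => rfl
  | cons e L ih =>
    unfold okL at h
    rw [List.all_cons, Bool.and_eq_true] at h
    have h3 := h.1
    simp only [Bool.and_eq_true] at h3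
    obtain ⟨a1, a2, a3, a4⟩ := h3
    have a1' := Nat.eq_of_beq_eq_true a1
    have a3' := Nat.eq_of_beq_eq_true a3
    have hsw : swL (e :: L) = (9 * (e.2.1 / 6), 6 * (e.1 / 9), e.2.2) :: swL L := rfl
    rw [hsw, arrL_cons, arrL_cons, ih h.2]
    congr 1
    by_cases hc : e.1 = 9 * j ∧ e.2.1 = 6 * i
    · rw [if_pos hc, if_pos]
      show 9 * (e.2.1 / 6) = 9 * i ∧ 6 * (e.1 / 9) = 6 * j
      omega
    · rw [if_neg hc, if_neg]
      show ¬ (9 * (e.2.1 / 6) = 9 * i ∧ 6 * (e.1 / 9) = 6 * j)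
      omega

/-- the flag of 693. -/
def Fg.fl (f : Fg) : H693W.Fl := toM3 f.arr

theorem Fg.ok_spec {f : Fg} (h : f.ok = true) : okL f.r f.s f.P = true ∧ okL f.r f.s f.N = true ∧
    f.r < 3 ∧ f.s < 3 ∧ wtL f.P + wtL f.N ≤ 15 := by
  unfold Fg.ok at h
  simp only [Bool.and_eq_true] at h
  obtain ⟨h1, h2, h3, h4, h5⟩ := h
  exact ⟨h1, h2, by have := Nat.le_of_ble_eq_true h3; omega,
    by have := Nat.le_of_ble_eq_true h4; omega, Nat.le_of_ble_eq_true h5⟩

theorem Fg.tr_fl {f : Fg} (h : f.ok = true) : f.tr.fl = H693W.tr f.fl := by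
  obtain ⟨h1, h2, -⟩ := Fg.ok_spec h
  funext p q
  show arrL (swL f.P) _ _ - arrL (swL f.N) _ _ = arrL f.P _ _ - arrL f.N _ _
  rw [arrL_sw h1, arrL_sw h2]

theorem Fg.sup {f : Fg} (h : f.ok = true) : SupR f.r f.fl := by
  obtain ⟨h1, h2, -⟩ := Fg.ok_spec h
  intro i hi q
  show arrL f.P (idx (some i)) _ - arrL f.N (idx (some i)) _ = 0
  have hx : idx (some i) = i.val + 1 := rfl
  rw [arrL_sup h1 _ _ (Or.inl (by omega)), arrL_sup h2 _ _ (Or.inl (by omega))]
  rfl

theorem Fg.supT {f : Fg} (h : f.ok = true) : SupR f.s (H693W.tr f.fl) := by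
  obtain ⟨h1, h2, -⟩ := Fg.ok_spec h
  intro i hi q
  show arrL f.P _ (idx (some i)) - arrL f.N _ (idx (some i)) = 0
  have hx : idx (some i) = i.val + 1 := rfl
  rw [arrL_sup h1 _ _ (Or.inr (by omega)), arrL_sup h2 _ _ (Or.inr (by omega))]
  rfl

/-! ### Numbers -/

/-- accumulated number of a list of cells; `ra` holds `42 * row` in 9-bit fields, `cb` holds
`6 * column` in 6-bit fields. -/
noncomputable def cs (ra cb : ℕ) (L : CL) : ℕ → (ℕ → Bool) → Bool :=
  List.rec (motive := fun _ => ℕ → (ℕ → Bool) → Bool) (fun acc k => k acc)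
    (fun e _ ih acc k =>
      seq (Nat.add acc (Nat.shiftLeft e.2.2 (Nat.add (Nat.land (Nat.shiftRight ra e.1) 511)
        (Nat.land (Nat.shiftRight cb e.2.1) 63)))) fun acc' => ih acc' k) L

/-- value. -/
def cv (a c : ℕ → ℕ) (L : CL) : ℕ :=
  (L.map fun e => e.2.2 * 64 ^ (7 * a (e.1 / 9) + c (e.2.1 / 6))).sum

/-- packed positions. -/
def PkR (ra : ℕ) (a : ℕ → ℕ) : Prop := ∀ i < 4, f9 ra i = 42 * a i
/-- packed positions. -/
def PkC (cb : ℕ) (c : ℕ → ℕ) : Prop := ∀ j < 4, f6 cb j = 6 * c j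

theorem cs_eq {ra cb : ℕ} {a c : ℕ → ℕ} (hr : PkR ra a) (hc : PkC cb c) {r s : ℕ}
    (hr2 : r < 3) (hs2 : s < 3) (L : CL)
    (hL : okL r s L = true) : ∀ (acc : ℕ) (k : ℕ → Bool), cs ra cb L acc k = k (acc + cv a c L) := by
  induction L with
  | nil => intro acc k; rfl
  | cons e L ih =>
    intro acc k
    unfold okL at hL
    rw [List.all_cons, Bool.and_eq_true] at hL
    have h3 := hL.1
    simp only [Bool.and_eq_true] at h3
    obtain ⟨a1, a2, a3, a4⟩ := h3
    have a1' := Nat.eq_of_beq_eq_true a1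
    have a2' := Nat.le_of_ble_eq_true a2
    have a3' := Nat.eq_of_beq_eq_true a3
    have a4' := Nat.le_of_ble_eq_true a4
    have hstep : cs ra cb (e :: L) acc k =
      seq (Nat.add acc (Nat.shiftLeft e.2.2 (Nat.add (Nat.land (Nat.shiftRight ra e.1) 511)
        (Nat.land (Nat.shiftRight cb e.2.1) 63)))) fun acc' => cs ra cb L acc' k := rfl
    rw [hstep, seq_eq, ih hL.2]
    have h5 : Nat.land (Nat.shiftRight ra e.1) 511 = 42 * a (e.1 / 9) := by
      have := hr (e.1 / 9) (by omega)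
      unfold f9 at this
      rwa [a1'] at this
    have h6 : Nat.land (Nat.shiftRight cb e.2.1) 63 = 6 * c (e.2.1 / 6) := by
      have := hc (e.2.1 / 6) (by omega)
      unfold f6 at this
      rwa [a3'] at this
    rw [h5, h6]
    congr 1
    have h7 : cv a c (e :: L) = e.2.2 * 64 ^ (7 * a (e.1 / 9) + c (e.2.1 / 6)) + cv a c L := by
      unfold cv; rw [List.map_cons, List.sum_cons]
    rw [h7]
    show acc + Nat.shiftLeft e.2.2 (42 * a (e.1 / 9) + 6 * c (e.2.1 / 6)) + cv a c L = _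
    have h8 : Nat.shiftLeft e.2.2 (42 * a (e.1 / 9) + 6 * c (e.2.1 / 6))
        = e.2.2 * 2 ^ (42 * a (e.1 / 9) + 6 * c (e.2.1 / 6)) := Nat.shiftLeft_eq _ _
    have h9 : 42 * a (e.1 / 9) + 6 * c (e.2.1 / 6) = 6 * (7 * a (e.1 / 9) + c (e.2.1 / 6)) := by
      ring
    rw [h8, h9, pow_mul]
    norm_num
    ring

theorem cv_sum {a c : ℕ → ℕ} {r s : ℕ} (hr2 : r < 3) (hs2 : s < 3) {L : CL}
    (hL : okL r s L = true) :
    (cv a c L : ℤ) = ∑ i ∈ range 4, ∑ j ∈ range 4, arrL L i j * 64 ^ (7 * a i + c j) := by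
  induction L with
  | nil => simp [cv, arrL_nil]
  | cons e L ih =>
    unfold okL at hL
    rw [List.all_cons, Bool.and_eq_true] at hL
    have h3 := hL.1
    simp only [Bool.and_eq_true] at h3
    obtain ⟨a1, a2, a3, a4⟩ := h3
    have a1' := Nat.eq_of_beq_eq_true a1
    have a2' := Nat.le_of_ble_eq_true a2
    have a3' := Nat.eq_of_beq_eq_true a3
    have a4' := Nat.le_of_ble_eq_true a4
    have h7 : cv a c (e :: L) = e.2.2 * 64 ^ (7 * a (e.1 / 9) + c (e.2.1 / 6)) + cv a c L := by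
      unfold cv; rw [List.map_cons, List.sum_cons]
    rw [h7]
    push_cast
    rw [ih hL.2]
    simp only [arrL_cons, add_mul, sum_add_distrib]
    congr 1
    rw [sum_eq_single (e.1 / 9)]
    · rw [sum_eq_single (e.2.1 / 6)]
      · rw [if_pos ⟨a1'.symm, a3'.symm⟩]
      · intro j _ hj
        rw [if_neg, zero_mul]
        rintro ⟨-, h⟩
        omega
      · intro h; exact absurd (mem_range.2 (by omega)) h
    · intro i _ hi
      refine sum_eq_zero fun j _ => ?_
      rw [if_neg, zero_mul]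
      rintro ⟨h, -⟩
      omega
    · intro h; exact absurd (mem_range.2 (by omega)) h

theorem arrL_le (L : CL) (i j : ℕ) : arrL L i j ≤ wtL L := by
  induction L with
  | nil => simp [arrL_nil, wtL]
  | cons e L ih =>
    rw [arrL_cons]
    have : wtL (e :: L) = e.2.2 + wtL L := by unfold wtL; rw [List.map_cons, List.sum_cons]
    rw [this]
    push_cast
    split_ifs
    · linarith
    · have : (0 : ℤ) ≤ e.2.2 := by positivity
      linarith

/-- sums of all entries. -/
theorem arrL_tot (L : CL) : ∑ i ∈ range 4, ∑ j ∈ range 4, arrL L i j ≤ wtL L := by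
  induction L with
  | nil => simp [arrL_nil, wtL]
  | cons e L ih =>
    simp only [arrL_cons, sum_add_distrib]
    have : wtL (e :: L) = e.2.2 + wtL L := by unfold wtL; rw [List.map_cons, List.sum_cons]
    rw [this]
    push_cast
    have h1 : ∑ i ∈ range 4, ∑ j ∈ range 4,
        (if e.1 = 9 * i ∧ e.2.1 = 6 * j then (e.2.2 : ℤ) else 0) ≤ e.2.2 := by
      by_cases he : ∃ i0 < 4, e.1 = 9 * i0
      · obtain ⟨i0, hi0, hi⟩ := he
        rw [sum_eq_single i0]
        · by_cases he' : ∃ j0 < 4, e.2.1 = 6 * j0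
          · obtain ⟨j0, hj0, hj⟩ := he'
            rw [sum_eq_single j0]
            · split_ifs <;> omega
            · intro j _ hne
              rw [if_neg]; rintro ⟨-, h⟩; omega
            · intro h; exact absurd (mem_range.2 hj0) h
          · rw [sum_eq_zero]
            · positivity
            · intro j hj
              rw [if_neg]; rintro ⟨-, h⟩; exact he' ⟨j, mem_range.1 hj, h⟩
        · intro i _ hne
          refine sum_eq_zero fun j _ => ?_
          rw [if_neg]; rintro ⟨h, -⟩; omega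
        · intro h; exact absurd (mem_range.2 hi0) h
      · rw [sum_eq_zero]
        · positivity
        · intro i hi
          refine sum_eq_zero fun j _ => ?_
          rw [if_neg]; rintro ⟨h, -⟩; exact he ⟨i, mem_range.1 hi, h⟩
    linarith

theorem wt4_arr {f : Fg} (h : f.ok = true) : H387.wt4 f.arr ≤ 15 := by
  obtain ⟨-, -, -, -, h5⟩ := Fg.ok_spec h
  unfold H387.wt4
  have h1 : ∑ i ∈ range 4, ∑ j ∈ range 4, |f.arr i j|
      ≤ ∑ i ∈ range 4, ∑ j ∈ range 4, (arrL f.P i j + arrL f.N i j) := by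
    refine sum_le_sum fun i _ => sum_le_sum fun j _ => ?_
    unfold Fg.arr
    have a1 := arrL_nonneg f.P i j
    have a2 := arrL_nonneg f.N i j
    rw [abs_le]
    constructor <;> linarith
  simp only [sum_add_distrib] at h1
  have h2 := arrL_tot f.P
  have h3 := arrL_tot f.N
  have h4 : ((wtL f.P + wtL f.N : ℕ) : ℤ) ≤ 15 := by exact_mod_cast h5
  push_cast at h4
  linarith

end Vale.Agent.P355.H129V
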