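import Vale.Agent.P355.H129V.Sos

/-! Chunks of rows are glued. -/

namespace Vale.Agent.P355.H129V

open Finset Vale.Agent.P355 Vale.Agent.P355.H138 Vale.Agent.P355.H693.Inj
open Vale.Agent.P355.H129 (psdCk)
open Vale.Agent.P355.H387 (Cls CT evL)
open Vale.Agent.P355.H693W (SqF)

variable {F : Bool → Mt → ℝ}

/-- the rows `i, …, j - 1` have the value `v`. -/
structure GV (F : Bool → Mt → ℝ) (w oU : ℕ) (fl : List (Fg × Fg)) (T : List RT) (i j : ℕ)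
    (v : ℝ) : Prop where
  val : Rvs F w oU fl T (fl.drop i) i = v
  len : i + T.length = j

theorem GV.of_ck (hF : Cls F) {ct : CT} {w oU : ℕ} {fl : List (Fg × Fg)}
    (hfl : fl.all okF = true) {i j : ℕ} {T : List RT} {out : List (ℕ × ℕ)}
    (h : ckV ct fl w oU i T out = true) (hl : i + T.length = j) :
    GV F w oU fl T i j (evL F ct out) := ⟨ckV_sound hF hfl h, hl⟩

theorem GV.app {w oU : ℕ} {fl : List (Fg × Fg)} {T T' : List RT} {i j k : ℕ} {v v' : ℝ}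
    (h : GV F w oU fl T i j v) (h' : GV F w oU fl T' j k v') :
    GV F w oU fl (T ++ T') i k (v + v') := by
  refine ⟨?_, ?_⟩
  · rw [Rvs_append w oU fl T T' i j h.len, h.val, h'.val]
  · rw [List.length_append, ← Nat.add_assoc, h.len]; exact h'.len

theorem GV.nonneg (hC : Cls F) (hS : SqF F) {fl : List (Fg × Fg)} {w oU n j : ℕ} {T : List RT}
    {v : ℝ} (hv : GV F w oU fl T 0 j v)
    {bu0 bl0 v0 c0 o0 δ0 bu1 bl1 v1 c1 o1 δ1 bu2 bl2 v2 c2 o2 δ2 bu3 bl3 v3 c3 o3 δ3 : ℕ}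
    {Cs0 Cs1 Cs2 Cs3 : List ℕ}
    (k0 : psdCk w bu0 bl0 v0 n c0 o0 oU δ0 (U0s T) Cs0 = true)
    (k1 : psdCk w bu1 bl1 v1 n c1 o1 oU δ1 (U1s T) Cs1 = true)
    (k2 : psdCk w bu2 bl2 v2 n c2 o2 oU δ2 (U2s T) Cs2 = true)
    (k3 : psdCk w bu3 bl3 v3 n c3 o3 oU δ3 (U3s T) Cs3 = true) : 0 ≤ v := by
  rw [← hv.val]
  exact Rvs_nonneg hC hS k0 k1 k2 k3

end Vale.Agent.P355.H129V
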