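import Vale.Agent.P355.H129V.Chk

/-! The checked blocks are sums of squares. -/

namespace Vale.Agent.P355.H129V

open Finset Vale.Agent.P355 Vale.Agent.P355.H138 Vale.Agent.P355.H693.Inj
open Vale.Agent.P355.H129 (dg Gm Gm_comm psdCk psdCk_nonneg psdCk_bdd)
open Vale.Agent.P355.H387 (Cls CT evL)
open Vale.Agent.P355.H693W (ph e0 tr ng tr_tr ng_ng sF tF s4 SqF PSDF sosS sF_any sF_tr sF_ng
  card_Pl riv_sqF)

variable {F : Bool → Mt → ℝ}

theorem tF_comm (hC : Cls F) (b : Bool) (n n' : H693W.Fl) (φ ψ φ' ψ' : Fin 3 → Fin 6) :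
    tF F b n n' φ ψ φ' ψ' = tF F b n' n φ' ψ' φ ψ := by
  unfold tF
  rw [← hC.neg b (fun p q => push φ' ψ' n' p q - push φ ψ n p q)]
  congr 1
  funext p q
  ring

theorem sF_all (hC : Cls F) (b : Bool) (n n' : H693W.Fl) :
    ∑ e : H693W.Pl, ∑ e' : H693W.Pl, ∑ f : H693W.Pl, ∑ g : H693W.Pl, tF F b n n' (ph e.1) (ph e'.1) (ph f.1) (ph g.1)
      = 400 * sF F b n n' := by
  simp only [sF_any hC, Finset.sum_const, Finset.card_univ, card_Pl, nsmul_eq_mul]
  push_cast
  ring

theorem sF_comm (hC : Cls F) (b : Bool) (n n' : H693W.Fl) : sF F b n n' = sF F b n' n := by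
  have h1 := sF_all hC b n n'
  have h2 := sF_all hC b n' n
  have h3 : ∑ e : H693W.Pl, ∑ e' : H693W.Pl, ∑ f : H693W.Pl, ∑ g : H693W.Pl,
      tF F b n n' (ph e.1) (ph e'.1) (ph f.1) (ph g.1)
      = ∑ e : H693W.Pl, ∑ e' : H693W.Pl, ∑ f : H693W.Pl, ∑ g : H693W.Pl,
      tF F b n' n (ph e.1) (ph e'.1) (ph f.1) (ph g.1) := by
    have e1 : ∀ (h : H693W.Pl → H693W.Pl → H693W.Pl → H693W.Pl → ℝ), ∑ e : H693W.Pl, ∑ e' : H693W.Pl, ∑ f : H693W.Pl, ∑ g : H693W.Pl, h e e' f g
        = ∑ f : H693W.Pl, ∑ g : H693W.Pl, ∑ e : H693W.Pl, ∑ e' : H693W.Pl, h e e' f g := by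
      intro h
      calc _ = ∑ e : H693W.Pl, ∑ f : H693W.Pl, ∑ e' : H693W.Pl, ∑ g : H693W.Pl, h e e' f g :=
            Finset.sum_congr rfl fun e _ => Finset.sum_comm
        _ = ∑ f : H693W.Pl, ∑ e : H693W.Pl, ∑ e' : H693W.Pl, ∑ g : H693W.Pl, h e e' f g := Finset.sum_comm
        _ = ∑ f : H693W.Pl, ∑ e : H693W.Pl, ∑ g : H693W.Pl, ∑ e' : H693W.Pl, h e e' f g :=
            Finset.sum_congr rfl fun f _ => Finset.sum_congr rfl fun e _ => Finset.sum_comm
        _ = _ := Finset.sum_congr rfl fun f _ => Finset.sum_comm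
    rw [e1]
    refine Finset.sum_congr rfl fun f _ => Finset.sum_congr rfl fun g _ =>
      Finset.sum_congr rfl fun e _ => Finset.sum_congr rfl fun e' _ => ?_
    exact tF_comm hC b n n' _ _ _ _
  linarith

theorem par6_comm (b c : Bool) : par6 b c = par6 c b := by
  cases b <;> cases c <;> rfl

theorem pv_comm (hC : Cls F) (f f' : Fg) (q0 q1 q2 q3 : ℝ) :
    pv F f f' q0 q1 q2 q3 = pv F f' f q0 q1 q2 q3 := by
  have h1 : ∀ b n n', sF F b n (tr n') = sF F b n' (tr n) := fun b n n' => by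
    rw [sF_comm hC b n (tr n'), ← sF_tr hC b (tr n') n, tr_tr]
  have h2 : ∀ b n n', sF F b n (ng n') = sF F b n' (ng n) := fun b n n' => by
    rw [sF_comm hC b n (ng n'), ← sF_ng hC b (ng n') n, ng_ng]
  have h3 : ∀ b n n', sF F b n (ng (tr n')) = sF F b n' (ng (tr n)) := fun b n n' => by
    rw [h2 b n (tr n'), ← sF_tr hC b (tr n') (ng n), tr_tr]
    rfl
  unfold pv
  rw [par6_comm, Bool.xor_comm, sF_comm hC _ f.fl f'.fl, h1 _ f.fl f'.fl, h2 _ f.fl f'.fl,
    h3 _ f.fl f'.fl]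

theorem tri_sum (n : ℕ) (a : ℕ → ℕ → ℝ) (ha : ∀ k l, a k l = a l k) :
    ∑ k ∈ range n, ∑ l ∈ range n, a k l
      = ∑ k ∈ range n, (∑ l ∈ range k, 2 * a k l + a k k) := by
  induction n with
  | zero => simp
  | succ n ih =>
    rw [Finset.sum_range_succ (fun k => ∑ l ∈ range (n + 1), a k l) n,
      Finset.sum_range_succ (fun k => ∑ l ∈ range k, 2 * a k l + a k k) n, ← ih]
    have e1 : ∑ k ∈ range n, ∑ l ∈ range (n + 1), a k l
        = ∑ k ∈ range n, ∑ l ∈ range n, a k l + ∑ l ∈ range n, a n l := by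
      rw [← sum_add_distrib]
      refine sum_congr rfl fun k _ => ?_
      rw [Finset.sum_range_succ, ha k n]
    rw [e1, Finset.sum_range_succ (fun l => a n l) n, ← mul_sum]
    ring

/-- the four columns of the data. -/
def U0s (T : List RT) : List ℕ := T.map fun e => e.1
def U1s (T : List RT) : List ℕ := T.map fun e => e.2.1
def U2s (T : List RT) : List ℕ := T.map fun e => e.2.2.1
def U3s (T : List RT) : List ℕ := T.map fun e => e.2.2.2.1

theorem getD_U0 (T : List RT) (i : ℕ) : (U0s T).getD i 0 = (T.getD i default).1 :=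
  List.getD_map (f := fun e : RT => e.1) (l := T) (n := i) (d := default)
theorem getD_U1 (T : List RT) (i : ℕ) : (U1s T).getD i 0 = (T.getD i default).2.1 :=
  List.getD_map (f := fun e : RT => e.2.1) (l := T) (n := i) (d := default)
theorem getD_U2 (T : List RT) (i : ℕ) : (U2s T).getD i 0 = (T.getD i default).2.2.1 :=
  List.getD_map (f := fun e : RT => e.2.2.1) (l := T) (n := i) (d := default)
theorem getD_U3 (T : List RT) (i : ℕ) : (U3s T).getD i 0 = (T.getD i default).2.2.2.1 :=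
  List.getD_map (f := fun e : RT => e.2.2.2.1) (l := T) (n := i) (d := default)

/-- a checked matrix is positive semidefinite on `Fin n`. -/
theorem psdF {w bu bl v n c o oU δ : ℕ} {Us Cs : List ℕ}
    (h : psdCk w bu bl v n c o oU δ Us Cs = true) :
    PSDF (fun i j : Fin n => (Gm w oU Us i j : ℝ)) := by
  intro z
  have h1 := psdCk_nonneg h fun k => if hk : k < n then z ⟨k, hk⟩ else 0
  refine h1.trans_eq ?_
  rw [Finset.sum_range]
  refine Finset.sum_congr rfl fun i _ => ?_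
  rw [Finset.sum_range]
  refine Finset.sum_congr rfl fun j _ => ?_
  simp only [Fin.is_lt, dite_true, Fin.eta]

/-- one block is nonnegative. -/
theorem blk_nonneg (hC : Cls F) (hS : SqF F) (fl : List (Fg × Fg)) {w bu bl v n c o oU δ : ℕ}
    {Us Cs : List ℕ} (h : psdCk w bu bl v n c o oU δ Us Cs = true) {et ec : ℝ}
    (h1 : et * et = 1) (h2 : ec * ec = 1) :
    0 ≤ ∑ k ∈ range n, ∑ l ∈ range n, (Gm w oU Us k l : ℝ) *
      ((par6 (fl.getD k default).1.par (fl.getD l default).1.par : ℝ) *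
        s4 F et ec (xor (fl.getD k default).1.par (fl.getD l default).1.par)
          (fl.getD k default).1.fl (fl.getD l default).1.fl) := by
  have h3 := sosS hC hS _ (psdF h) (fun i : Fin n => (fl.getD i default).1.par)
    (fun i : Fin n => (fl.getD i default).1.fl) h1 h2
  refine h3.trans_eq ?_
  rw [Finset.sum_range]
  refine Finset.sum_congr rfl fun i _ => ?_
  rw [Finset.sum_range]

/-- **the checked blocks are nonnegative.** -/
theorem Rvs_nonneg (hC : Cls F) (hS : SqF F) {fl : List (Fg × Fg)} {w oU n : ℕ} {T : List RT}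
    {bu0 bl0 v0 c0 o0 δ0 bu1 bl1 v1 c1 o1 δ1 bu2 bl2 v2 c2 o2 δ2 bu3 bl3 v3 c3 o3 δ3 : ℕ}
    {Cs0 Cs1 Cs2 Cs3 : List ℕ}
    (k0 : psdCk w bu0 bl0 v0 n c0 o0 oU δ0 (U0s T) Cs0 = true)
    (k1 : psdCk w bu1 bl1 v1 n c1 o1 oU δ1 (U1s T) Cs1 = true)
    (k2 : psdCk w bu2 bl2 v2 n c2 o2 oU δ2 (U2s T) Cs2 = true)
    (k3 : psdCk w bu3 bl3 v3 n c3 o3 oU δ3 (U3s T) Cs3 = true) :
    0 ≤ Rvs F w oU fl T fl 0 := by
  have hn : T.length = n := by
    have := (psdCk_bdd k0).1
    unfold U0s at this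
    rwa [List.length_map] at this
  set fk : ℕ → Fg := fun k => (fl.getD k default).1 with hfk
  set a : ℕ → ℕ → ℝ := fun k l => pv F (fk k) (fk l) (Gm w oU (U0s T) k l : ℝ)
    (Gm w oU (U1s T) k l : ℝ) (Gm w oU (U2s T) k l : ℝ) (Gm w oU (U3s T) k l : ℝ) with ha
  have hac : ∀ k l, a k l = a l k := fun k l => by
    simp only [ha]
    rw [pv_comm hC, Gm_comm w oU (U0s T) k l, Gm_comm w oU (U1s T) k l,
      Gm_comm w oU (U2s T) k l, Gm_comm w oU (U3s T) k l]
  have h1 : Rvs F w oU fl T fl 0 = ∑ k ∈ range n, ∑ l ∈ range n, a k l := by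
    rw [tri_sum n a hac]
    unfold Rvs
    rw [hn]
    refine sum_congr rfl fun k _ => ?_
    unfold rv'
    rw [zero_add]
    have hG : ∀ (Us : List ℕ) (U : ℕ), Us.getD k 0 = U → ∀ l ≤ k,
        qd w oU U l = (Gm w oU Us k l : ℝ) := by
      intro Us U hU l hl
      unfold qd Gm
      rw [max_eq_left hl, min_eq_right hl, hU]
      push_cast
      rfl
    have g0 := hG (U0s T) _ (getD_U0 T k)
    have g1 := hG (U1s T) _ (getD_U1 T k)
    have g2 := hG (U2s T) _ (getD_U2 T k)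
    have g3 := hG (U3s T) _ (getD_U3 T k)
    rw [g0 k le_rfl, g1 k le_rfl, g2 k le_rfl, g3 k le_rfl]
    congr 1
    refine sum_congr rfl fun l hl => ?_
    have hl' := (mem_range.1 hl).le
    rw [g0 l hl', g1 l hl', g2 l hl', g3 l hl']
  rw [h1]
  have b0 := blk_nonneg hC hS fl k0 (et := 1) (ec := 1) (by norm_num) (by norm_num)
  have b1 := blk_nonneg hC hS fl k1 (et := 1) (ec := -1) (by norm_num) (by norm_num)
  have b2 := blk_nonneg hC hS fl k2 (et := -1) (ec := 1) (by norm_num) (by norm_num)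
  have b3 := blk_nonneg hC hS fl k3 (et := -1) (ec := -1) (by norm_num) (by norm_num)
  refine (add_nonneg (add_nonneg (add_nonneg b0 b1) b2) b3).trans_eq ?_
  simp only [← sum_add_distrib]
  refine sum_congr rfl fun k _ => sum_congr rfl fun l _ => ?_
  simp only [ha, hfk]
  unfold pv s4
  ring

/-- concatenation of chunks. -/
theorem Rvs_append (w oU : ℕ) (fl : List (Fg × Fg)) (T T' : List RT) (i j : ℕ)
    (hj : i + T.length = j) :
    Rvs F w oU fl (T ++ T') (fl.drop i) i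
      = Rvs F w oU fl T (fl.drop i) i + Rvs F w oU fl T' (fl.drop j) j := by
  unfold Rvs
  rw [List.length_append, Finset.sum_range_add]
  congr 1
  · refine sum_congr rfl fun a ha => ?_
    rw [List.getD_append _ _ _ _ (mem_range.1 ha)]
  · refine sum_congr rfl fun a ha => ?_
    rw [List.getD_append_right _ _ _ _ (Nat.le_add_right _ _), Nat.add_sub_cancel_left]
    have e : i + (T.length + a) = j + a := by omega
    rw [e]
    congr 1
    simp only [List.getD_eq_getElem?_getD, List.getElem?_drop]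
    rw [e]

end Vale.Agent.P355.H129V
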